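import Vale.Agent.P042.Power.SplitRoots

/-!
P042: `r_h(N) ≥ c N ^ (1 - 1 / (2 k))` for `h` with `k` distinct rational roots, none an integer,
and more generally when modulo some prime every root is simple and comes from such a root.
-/

namespace Vale.Agent.Results.P042.HalfExponentSaving

open Polynomial

theorem result : ∀ h : ℤ[X], 1 ≤ h.natDegree → 0 < h.leadingCoeff →
    (((h.map (Int.castRingHom ℚ)).roots.toFinset.card = h.natDegree ∧ ∀ z : ℤ, h.eval z ≠ 0) ∨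
      ∃ p : ℕ, p.Prime ∧ ∀ r : ℤ, (p : ℤ) ∣ h.eval r → ¬ (p : ℤ) ∣ h.derivative.eval r ∧
        ∃ q : ℚ, (h.map (Int.castRingHom ℚ)).eval q = 0 ∧ q.den ≠ 1 ∧ ¬ (p : ℤ) ∣ q.den ∧
          (p : ℤ) ∣ q.den * r - q.num) →
    ∃ c : ℝ, 0 < c ∧ ∃ N0 : ℕ, ∀ N : ℕ, N0 ≤ N → ∃ A : Finset ℕ, A ⊆ Finset.Icc 1 N ∧
      (∀ x ∈ A, ∀ y ∈ A, ∀ n : ℕ, 1 ≤ n → (x : ℤ) - y = h.eval (n : ℤ) → x = y) ∧
      c * (N : ℝ) ^ (1 - 1 / (2 * (h.natDegree : ℝ))) ≤ A.card := by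
  intro h hk hlead hyp
  obtain ⟨hr, hni⟩ | ⟨p, hp, H⟩ := hyp
  · obtain ⟨p, hp, H⟩ := _root_.Vale.Agent.P042.Power.exists_prime_of_nonint_roots h
      (fun h' => by rw [h', natDegree_zero] at hk; omega) hr hni
    exact _root_.Vale.Agent.P042.Power.half_lower_bound h hk hlead p hp H
  · exact _root_.Vale.Agent.P042.Power.half_lower_bound h hk hlead p hp H

end Vale.Agent.Results.P042.HalfExponentSaving
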