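import Vale.Agent.P042.Power.General
import Vale.Agent.P042.Power.Separable

/-!
P042: `r_h(N) ≥ N ^ (1 - 1 / k + δ)` for every `h` of degree `k ≥ 2` without repeated roots, and
more generally when modulo some prime every root of `h` is simple.
-/

namespace Vale.Agent.Results.P042.PowerLowerBound

open Polynomial

theorem result : ∀ h : ℤ[X], 2 ≤ h.natDegree → 0 < h.leadingCoeff →
    ((h.map (Int.castRingHom ℚ)).Separable ∨
      ∃ p : ℕ, p.Prime ∧ ∀ r : ℤ, (p : ℤ) ∣ h.eval r → ¬ (p : ℤ) ∣ h.derivative.eval r) →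
    ∃ δ : ℝ, 0 < δ ∧ ∃ N0 : ℕ, ∀ N : ℕ, N0 ≤ N → ∃ A : Finset ℕ, A ⊆ Finset.Icc 1 N ∧
      (∀ x ∈ A, ∀ y ∈ A, ∀ n : ℕ, 1 ≤ n → (x : ℤ) - y = h.eval (n : ℤ) → x = y) ∧
      (N : ℝ) ^ (1 - 1 / (h.natDegree : ℝ) + δ) ≤ A.card := by
  intro h hk hlead hyp
  obtain hs | ⟨p, hp, H⟩ := hyp
  · obtain ⟨p, hp, H⟩ := _root_.Vale.Agent.P042.Power.exists_prime_of_separable h hs
    exact _root_.Vale.Agent.P042.Power.general_lower_bound h hk hlead p hp H
  · exact _root_.Vale.Agent.P042.Power.general_lower_bound h hk hlead p hp H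

end Vale.Agent.Results.P042.PowerLowerBound
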